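import Crest.Agent.X212.Enr44.Defs
import Crest.Agent.X212.Sm25.Dsc
import Crest.Agent.X212.Dr59.Sph

/-! X212 / ENR-LG (helper40): logarithms of circle valued functions, `b₂ (S² × S¹ × ℝ) ≤ 1`. -/

set_option autoImplicit false
set_option linter.unusedSectionVars false
noncomputable section
open scoped Manifold ContDiff Topology
open Set Function

namespace Crest.Agent.X212.Lg40
open Dr59 Line51 Enr44 Geo28
open Sw (Gau)

section gen
variable {E : Type} [NormedAddCommGroup E] [NormedSpace ℝ E] [FiniteDimensional ℝ E]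
  {H : Type} [TopologicalSpace H] {I : ModelWithCorners ℝ E H} [I.Boundaryless]
  {M : Type} [TopologicalSpace M] [ChartedSpace H M] [IsManifold I ∞ M] [PreconnectedSpace M]
  {g h : M → Circle} {u : M → ℂ}

/-- functions with the same angular form -/
theorem cst (hg : ∀ x, CSm I g x) (hh : ∀ x, CSm I h x) (e : ∀ x, ang I g x = ang I h x) :
    ∃ c : ℝ, ∀ x, g x = h x * Circle.exp c := by
  obtain ⟨c, -, h2⟩ := Sm25.const_of_par isOpen_univ isPreconnected_univ (iso_sc (α := 0) (β := 0)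
    (fun x _ => (hg x).mul (hh x).inv) fun x _ => by
      rw [ang_mul (hg x) (hh x).inv, ang_inv (hh x), e, add_neg_cancel, add_zero])
  refine ⟨Complex.arg c, fun x => ?_⟩
  rw [show c = (g * h⁻¹) x by simpa [sc] using (congrFun (congrFun (h2 x trivial) ()) ()).symm,
    Circle.exp_arg]
  simp

theorem csm_exp {f : M → ℝ} {x : M} (hf : ContMDiffAt I 𝓘(ℝ, ℝ) ∞ f x) :
    CSm I (fun y => Circle.exp (f y)) x := (contMDiff_circleExp _).comp x hf

theorem lift (hu : Gau I u) : ∃ g : M → Circle, (∀ x, CSm I g x) ∧ ∀ x, u x = g x :=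
  haveI : Fact (Module.finrank ℝ ℂ = 1 + 1) := ⟨Complex.finrank_real_complex⟩
  ⟨_, hu.1.codRestrict_sphere (n := 1) fun x => mem_sphere_zero_iff_norm.2 (hu.2 x), fun _ => rfl⟩

theorem lg (hg : ∀ x, CSm I g x) (hh : ∀ x, CSm I h x) (e : Ex I univ (ang I g - ang I h)) :
    ∃ χ : M → ℝ, An.Sm I χ ∧ ∀ x, g x = h x * Circle.exp (χ x) := by
  obtain ⟨f, hf⟩ := Weil93.exists_df isOpen_univ e ((dg_ang _).sub (dg_ang _))
  have s := fun x => csm_exp (hf x trivial).1
  obtain ⟨c, hc⟩ := cst hg (fun x => (hh x).mul (s x)) fun x => by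
    rw [ang_mul (hh x) (s x), ang_exp (hf x trivial).1, (hf x trivial).2, Pi.sub_apply, add_sub_cancel]
  exact ⟨fun x => f x + c, fun x => (hf x trivial).1.add contMDiffAt_const, fun x => by
    rw [hc, Circle.exp_add, Pi.mul_apply, mul_assoc]⟩

end gen

theorem lgQ : LgQ := fun A u hu => by
  obtain ⟨g, hg, e⟩ := lift hu
  obtain ⟨χ, s, h⟩ := lg (h := 1) hg (fun _ => contMDiffAt_const)
    (by rw [ang_one, sub_zero]; exact A.h1 _ (cl_ang fun x _ => hg x))
  exact ⟨χ, s, fun y => by rw [e, h, Pi.one_apply, one_mul, Circle.coe_exp]⟩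

variable (R : R3)

theorem bd_R {k n m : ℕ} (h1 : Bd (𝓡 2) (k + 1) (univ : Set (Sp 2)) n)
    (h2 : Bd (𝓡 2) k (univ : Set (Sp 2)) m) : Bd R.Y.I (k + 1) (univ : Set R.Y.M) (m + n) :=
  (h1.prod_circle isOpen_univ h2).of_inj _ (st_inj_of_inv isOpen_univ (f := R.φ.symm) (g := R.φ)
    ⟨fun p _ => R.φ.symm.contMDiff p, fun _ _ => trivial⟩
    ⟨fun p _ => R.φ.contMDiff p, fun _ _ => ⟨trivial, trivial⟩⟩ fun x _ => R.φ.symm_apply_apply x)

theorem h2R : H2R := fun R z g hz hn hg => by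
  have h := (bd_R R bd_sphere (bd_zero.2 (hz_sphere (k := 0) (by decide)))).prod_convex isOpen_univ
    isOpen_univ (convex_univ (E := ℝ))
  rw [univ_prod_univ] at h
  obtain ⟨c, hc⟩ := Bd.span (ι := Unit) h (e := fun _ => hz.cls) (fun c hc _ => by
    rw [Fintype.sum_unique] at hc
    exact (smul_eq_zero.1 hc).resolve_right fun k => hn (cls_eq_zero.1 k)) hg.cls
  rw [Fintype.sum_unique, ← cls_smul, eq_comm, cls_eq] at hc
  exact ⟨_, hc⟩

theorem lgR : LgR := fun R v hv => by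
  obtain ⟨g, hg, e⟩ := lift hv
  have st : ∀ x, CSm R.Y.I (tR R) x := fun x => (R.φ.contMDiff x).snd
  have ct : Cl R.Y.I 1 univ (ang R.Y.I (tR R)) := cl_ang fun x _ => st x
  obtain ⟨y₀⟩ : Nonempty R.Y.M := inferInstance
  let γ := fun t : ℝ => R.φ.symm ((R.φ y₀).1, Circle.exp t)
  have sγ : ContMDiff 𝓘(ℝ, ℝ) R.Y.I ∞ γ :=
    R.φ.symm.contMDiff.comp (contMDiff_const.prodMk contMDiff_circleExp)
  have tγ : ∀ t, tR R (γ t) = Circle.exp t := fun t => congrArg Prod.snd (R.φ.apply_symm_apply _)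
  have pγ : γ (2 * Real.pi) = γ 0 := by simp [γ]
  have : PreconnectedSpace (Sp 2) := isPreconnected_iff_preconnectedSpace.1 (isPreconnected_sphere
    (by rw [← Module.finrank_eq_rank, finrank_euclideanSpace_fin]; norm_num) 0 1)
  have b := bd_R R (bd_zero.2 (hz_sphere (k := 0) (by decide))) (bd0 isOpen_univ isPreconnected_univ)
  obtain ⟨c, hc⟩ := Bd.span (ι := Unit) b
    (e := fun _ => ct.cls) (fun c hc _ => by
      rw [Fintype.sum_unique] at hc
      simpa using ang_period (U := univ) (g := fun _ : Unit => tR R) (c := c) (fun _ x _ => st x)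
        (by rw [Fintype.sum_unique]; exact cls_eq_zero.1 ((cls_smul _ ct).trans hc))
        ⟨fun t _ => sγ t, fun _ _ => trivial⟩ pγ (d := fun _ => 1) (u := fun _ => 1) (by simp [tγ]))
    (cl_ang fun x _ => hg x).cls
  rw [Fintype.sum_unique, ← cls_smul, eq_comm, cls_eq] at hc
  obtain ⟨f, hf⟩ := Weil93.exists_df isOpen_univ hc ((dg_ang _).sub ((dg_ang _).smul _))
  have s := fun x => csm_exp (hf x trivial).1
  have s1 : ∀ t : ℝ, ContMDiffAt 𝓘(ℝ, ℝ) 𝓘(ℝ, ℝ) ∞ (fun t => c default * t) t := fun t =>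
    contMDiffAt_const.mul contMDiffAt_id
  obtain ⟨d, hd⟩ := cst (g := (g * (fun y => Circle.exp (f y))⁻¹) ∘ γ)
    (fun t => ((hg _).mul (s _).inv).comp t (sγ t)) (fun t => csm_exp (s1 t)) fun t => by
      have m := (sγ t).mdifferentiableAt ne0
      rw [← pm_ang ((hg _).mul (s _).inv) m, show ang R.Y.I (g * (fun y => Circle.exp (f y))⁻¹) =
        c default • ang R.Y.I (tR R) from funext fun x => by
          rw [ang_mul (hg x) (s x).inv, ang_inv (s x), ang_exp (hf x trivial).1, (hf x trivial).2]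
          simp, pm_smul, Pi.smul_apply, pm_ang (st _) m,
        show tR R ∘ γ = fun t => Circle.exp (id t) from funext tγ, ang_exp contMDiffAt_id,
        ang_exp (s1 t), df, df, mf_eq_fderiv, mf_eq_fderiv, ← map_smul]
      congr 1
      ext
      simp
  have h1 := (hd (2 * Real.pi)).symm.trans ((congrArg _ pγ).trans (hd 0))
  rw [mul_left_inj, mul_zero, Circle.exp_zero, Circle.exp_eq_one] at h1
  obtain ⟨n, hn⟩ := h1
  rw [mul_left_injective₀ (by positivity) hn] at hc
  obtain ⟨χ, sχ, h⟩ := lg hg (fun x => (st x).zpow n) (hc.congr fun x _ => by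
    rw [Pi.sub_apply, Pi.sub_apply, ang_zpow (st x), Pi.smul_apply])
  exact ⟨n, χ, sχ, fun y => by rw [e, h, Circle.coe_mul, Circle.coe_exp, Pi.pow_apply, Circle.coe_zpow]⟩

end Crest.Agent.X212.Lg40
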